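import Vale.Agent.P290.H143.FirstGeo
import Vale.Agent.P290.H362.Iface

/-! # P290, package FIBCLASS (helper143): the first fibration in helper362's interface -/

open scoped Manifold ContDiff Topology ComplexConjugate Matrix ComplexOrder
open Set Filter Vale.Agent.P267 Vale.Agent.P267.H757 Vale.Agent.P267.H332
open Vale.Agent.P290.H342 Vale.Agent.P290.H362 Vale.Agent.P290.H445

noncomputable section

namespace Vale.Agent.P290.H143

/-- The Hodge index input (helper416): `N` is a norm function with semipositive, not identically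
vanishing curvature, `cl N = k • e₀`, `e₀² = 0`, `e₀` primitive. -/
def NegInput {X : All.K3} (G : Geo X) : Prop :=
  ∀ (N : X.X → ℝ) (k : ℕ) (e₀ c₀ : G.T.H), IsNormFn FL.C2 N → (∀ x, (curvN N x).PosSemidef) →
    (∃ x, curvN N x ≠ 0) → 0 < k → G.T.cl N = k • e₀ → G.T.B c₀ e₀ = 1 → G.T.B e₀ e₀ = 0 →
    ∀ x, G.T.B x e₀ = 0 → G.σ x = 0 →
      G.T.B x x ≤ 0 ∧ (G.T.B x x = 0 → ∃ j : ℤ, x = j • e₀)

/-- **The first fibration.** A K3 surface with a nonconstant holomorphic map to a Riemann surface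
has a base point free pencil of a primitive class `e` (period zero, square zero). -/
theorem exists_ell {X : All.K3} (G : Geo X) (hL : IsLat G) (hneg : NegInput G)
    (C : All.RS) (π : X.X → C.C) (hπ : ∀ x, All.HolC π x) (hnc : ∃ x y, π x ≠ π y) :
    ∃ (e c : G.T.H), Nonempty (Ell G.T e) ∧ G.σ e = 0 ∧ G.T.B c e = 1 ∧
      ∀ x, G.T.B x e = 0 → G.σ x = 0 →
        G.T.B x x ≤ 0 ∧ (G.T.B x x = 0 → ∃ j : ℤ, x = j • e) := by
  classical
  have := hL.finite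
  have := hL.free
  have := C.manifold
  have := C.t2
  have hπ' : MDifferentiable 𝓘(ℂ, FL.C2) 𝓘(ℂ) π := fun x => H310.holC_iff_fl.1 (hπ x)
  have hzD : ∀ D : G.T.κ →₀ ℕ, G.T.toCurves.cls D = 0 → D = 0 := by
    intro D h
    rw [G.T.cls_eq] at h
    have h1 := G.hz _ (G.T.nf_Nd D) h
    have h2 := (dv_eq_zero_iff G.T (G.T.nf_Nd D)).2 h1
    rwa [dv_Nd] at h2
  have hσD : ∀ D : G.T.κ →₀ ℕ, G.σ (G.T.toCurves.cls D) = 0 := by
    intro D
    have h1 : G.T.toCurves.cls D = G.T.cl (G.T.Nd D) := G.T.cls_eq D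
    rw [h1]
    exact G.σ_cl _ (G.T.nf_Nd D)
  -- a fibre of square zero
  obtain ⟨c₁, hc₁, hsq₁⟩ : ∃ c₁ ∈ range π, G.T.B (G.T.cl (fN π c₁)) (G.T.cl (fN π c₁)) = 0 :=
    exists_sq_zero G.T hπ' hnc
  obtain ⟨f, c₀, hc₀, hcl⟩ := exists_first' G.T hπ' hnc hL.unimod hzD hc₁ hsq₁
    (fun N k e₀ c₀ h1 h2 h3 h4 h5 h6 h7 D hD => by
      refine hneg N k e₀ c₀ h1 h2 h3 h4 h5 h6 h7 (G.T.toCurves.cls D) ?_ (hσD D)
      rw [G.T.symm]; exact hD)
  have hN₁ := isNormFn_fN hπ' hnc c₁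
  have hNEG := hneg (fN π c₁) f.k f.e₀ c₀ hN₁ (posSemidef_curvN_fN hπ' hnc _)
    (exists_curvN_fN_ne_zero hπ' hnc hc₁) f.k_pos hcl hc₀ f.sq
  have hσ : G.σ f.e₀ = 0 := by
    have h1 := G.σ_cl _ hN₁
    rw [hcl, map_nsmul, nsmul_eq_mul, mul_eq_zero] at h1
    exact h1.resolve_left (Nat.cast_ne_zero.2 f.k_pos.ne')
  obtain ⟨P, hP⟩ := G.rr f.e₀ hσ (le_of_eq f.sq.symm) (by
    intro N hN h
    have h1 : G.T.toCurves.cls (G.T.dv N) = (-1 : ℤ) • f.e₀ := by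
      have : G.T.toCurves.cls (G.T.dv N) = G.T.cl N := G.T.cl_dv hN
      rw [this, h, neg_smul, one_smul]
    have h2 := f.eq_zero_of_nonpos (by norm_num) h1
    have h3 : G.T.toCurves.cls (G.T.dv N) = 0 := by rw [h2]; exact G.T.toCurves.cls_zero
    rw [h3] at h1
    apply f.e₀_ne_zero
    rw [neg_smul, one_smul, zero_eq_neg] at h1
    exact h1)
  have hb : P.Bpf := by
    refine Pen.bpf_of_sq P f.sq ?_
    intro Γ hΓ hΓ'
    have h10 : G.T.toCurves.cls (G.T.dv (P.N 1 0)) = f.e₀ := by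
      have : G.T.toCurves.cls (G.T.dv (P.N 1 0)) = G.T.cl (P.N 1 0) :=
        G.T.cl_dv (P.nf 1 0 (Or.inl one_ne_zero))
      rw [this, P.cl 1 0 (Or.inl one_ne_zero)]
    have h01 : G.T.toCurves.cls (G.T.dv (P.N 0 1)) = f.e₀ := by
      have : G.T.toCurves.cls (G.T.dv (P.N 0 1)) = G.T.cl (P.N 0 1) :=
        G.T.cl_dv (P.nf 0 1 (Or.inr one_ne_zero))
      rw [this, P.cl 0 1 (Or.inr one_ne_zero)]
    exact (f.first_pencil hP h10 h01 Γ hΓ Γ hΓ').1 rfl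
  refine ⟨f.e₀, c₀, ⟨⟨P, hb, f.e₀_ne_zero, G.hz, ?_⟩⟩, hσ, hc₀, hNEG⟩
  intro N hN h
  exact hNEG (G.T.cl N) (by rw [G.T.symm]; exact h) (G.σ_cl N hN)

end Vale.Agent.P290.H143
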