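import Vale.Agent.P267.Statement
import Mathlib.Geometry.Manifold.MFDeriv.Atlas
import Mathlib.Geometry.Manifold.MFDeriv.SpecificFunctions
import Mathlib.Analysis.Complex.CauchyIntegral
import Mathlib.Analysis.Analytic.Uniqueness

/-! # P290, package FIBCLASS (helper143): the fibres of a holomorphic map to a Riemann surface, as
effective divisors

`fibDiv π hπ hnc c : EffDiv X` has support `π⁻¹{c}` and local equation `t ∘ π - t c`.
-/

open scoped Manifold ContDiff Topology
open Set Filter Vale.Agent.P272.K Vale.Agent.P267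

noncomputable section

namespace Vale.Agent.P290.H143

/-- identity principle on a ball of a complex normed space -/
theorem eqOn_ball_zero {E : Type*} [NormedAddCommGroup E] [NormedSpace ℂ E] {F : E → ℂ} {p : E}
    {r : ℝ} (hF : DifferentiableOn ℂ F (Metric.ball p r)) {z₀ : E} (hz₀ : z₀ ∈ Metric.ball p r)
    (h0 : ∀ᶠ z in 𝓝 z₀, F z = 0) {z : E} (hz : z ∈ Metric.ball p r) : F z = 0 := by
  set L : ℂ → E := fun s => z₀ + s • (z - z₀) with hL
  have hLc : Continuous L := by fun_prop
  have hLd : Differentiable ℂ L := by fun_prop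
  set S : Set ℂ := L ⁻¹' Metric.ball p r with hS
  have hSo : IsOpen S := Metric.isOpen_ball.preimage hLc
  have hSc : Convex ℝ S := by
    intro s hs s' hs' a b ha hb hab
    have : L (a • s + b • s') = a • L s + b • L s' := by
      simp only [hL]
      generalize z - z₀ = w
      have h1 : z₀ = a • z₀ + b • z₀ := by rw [← add_smul, hab, one_smul]
      have h2 : (a • s + b • s') • w = a • (s • w) + b • (s' • w) := by
        rw [add_smul, smul_assoc, smul_assoc]
      rw [h2, smul_add, smul_add]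
      nth_rewrite 1 [h1]
      abel
    rw [hS, mem_preimage, this]
    exact convex_ball p r hs hs' ha hb hab
  have hd : DifferentiableOn ℂ (F ∘ L) S := hF.comp hLd.differentiableOn fun s hs => hs
  have ha : AnalyticOnNhd ℂ (F ∘ L) S := hd.analyticOnNhd hSo
  have h0S : (0 : ℂ) ∈ S := by simpa [hS, hL] using hz₀
  have h1S : (1 : ℂ) ∈ S := by simpa [hS, hL] using hz
  have hev : (F ∘ L) =ᶠ[𝓝 0] 0 := by
    have : Tendsto L (𝓝 0) (𝓝 z₀) := by
      have := hLc.tendsto 0
      simpa [hL] using this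
    exact this.eventually h0
  have := ha.eqOn_zero_of_preconnected_of_eventuallyEq_zero hSc.isPreconnected h0S hev h1S
  simpa [hL] using this

variable {X : Type*} [TopologicalSpace X] [ChartedSpace (Cm 2) X]
  {C : Type*} [TopologicalSpace C] [ChartedSpace ℂ C]

/-- the local coordinate `t ∘ π - t c` -/
def tfun (π : X → C) (c : C) (y : X) : ℂ := chartAt ℂ c (π y) - chartAt ℂ c c

omit [TopologicalSpace X] [ChartedSpace (Cm 2) X] in
theorem tfun_eq_zero {π : X → C} {c : C} {y : X} (hy : π y ∈ (chartAt ℂ c).source) :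
    tfun π c y = 0 ↔ π y = c := by
  rw [tfun, sub_eq_zero]
  exact ⟨fun h => (chartAt ℂ c).injOn hy (mem_chart_source ℂ c) h, fun h => by rw [h]⟩

theorem mdiff_tfun [IsManifold 𝓘(ℂ) ω C] {π : X → C} (hπ : MDifferentiable 𝓘(ℂ, Cm 2) 𝓘(ℂ) π)
    (c : C) : MDifferentiableOn 𝓘(ℂ, Cm 2) 𝓘(ℂ) (tfun π c) (π ⁻¹' (chartAt ℂ c).source) := by
  have : IsManifold 𝓘(ℂ) 1 C := IsManifold.of_le (n := ω) le_top
  intro y hy
  have h1 : MDifferentiableAt 𝓘(ℂ) 𝓘(ℂ) (chartAt ℂ c) (π y) :=
    (mdifferentiableAt_atlas (I := 𝓘(ℂ)) (chart_mem_atlas ℂ c) hy)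
  have h2 : MDifferentiableAt 𝓘(ℂ, Cm 2) 𝓘(ℂ) (fun y => chartAt ℂ c (π y)) y :=
    h1.comp y (hπ y)
  have h3 : MDifferentiableAt 𝓘(ℂ, Cm 2) 𝓘(ℂ) (tfun π c) y := by
    exact h2.sub mdifferentiableAt_const
  exact h3.mdifferentiableWithinAt

/-- a holomorphic function on an open set of `X`, in a chart -/
theorem differentiableAt_symm [IsManifold 𝓘(ℂ, Cm 2) ω X] {f : X → ℂ} {y : X}
    (hf : MDifferentiableAt 𝓘(ℂ, Cm 2) 𝓘(ℂ) f y) {e : OpenPartialHomeomorph X (Cm 2)}
    (he : e ∈ atlas (Cm 2) X) (hy : y ∈ e.source) :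
    DifferentiableAt ℂ (fun z => f (e.symm z)) (e y) := by
  have : IsManifold 𝓘(ℂ, Cm 2) 1 X := IsManifold.of_le (n := ω) le_top
  have h1 : MDifferentiableAt 𝓘(ℂ, Cm 2) 𝓘(ℂ, Cm 2) e.symm (e y) :=
    mdifferentiableAt_atlas_symm he (e.map_source hy)
  have h2 : MDifferentiableAt 𝓘(ℂ, Cm 2) 𝓘(ℂ) (fun z => f (e.symm z)) (e y) := by
    refine MDifferentiableAt.comp (e y) ?_ h1
    rwa [e.left_inv hy]
  exact h2.differentiableAt

/-- a nonconstant holomorphic map is nowhere locally constant -/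
theorem frequently_ne [IsManifold 𝓘(ℂ, Cm 2) ω X] [IsManifold 𝓘(ℂ) ω C] [T2Space C]
    [PreconnectedSpace X] {π : X → C} (hπ : MDifferentiable 𝓘(ℂ, Cm 2) 𝓘(ℂ) π)
    (hnc : ∃ x y, π x ≠ π y) (c : C) (y : X) : ∃ᶠ z in 𝓝 y, π z ≠ c := by
  intro hcon
  have hcon' : ∀ᶠ z in 𝓝 y, π z = c := by
    filter_upwards [hcon] with z hz
    exact not_not.1 hz
  set S : Set X := {x | ∀ᶠ z in 𝓝 x, π z = c} with hS
  have hSo : IsOpen S := isOpen_setOfPred_eventually_nhds
  have hSc : IsClosed S := by
    rw [← closure_subset_iff_isClosed]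
    intro x hx
    have hcl : IsClosed {x | π x = c} := isClosed_eq hπ.continuous continuous_const
    have hxc : π x = c := by
      have h1 : S ⊆ {x | π x = c} := fun x hx => hx.self_of_nhds
      exact (closure_minimal h1 hcl) hx
    set e := chartAt (Cm 2) x with he
    have hxs : x ∈ e.source := mem_chart_source _ x
    set W : Set (Cm 2) := e.target ∩ e.symm ⁻¹' (π ⁻¹' (chartAt ℂ c).source) with hW
    have hWo : IsOpen W := e.symm.isOpen_inter_preimage
      ((chartAt ℂ c).open_source.preimage hπ.continuous)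
    have hxW : e x ∈ W := by
      refine ⟨e.map_source hxs, ?_⟩
      rw [mem_preimage, mem_preimage, e.left_inv hxs, hxc]
      exact mem_chart_source ℂ c
    obtain ⟨r, hr, hrW⟩ := Metric.isOpen_iff.1 hWo _ hxW
    set F : Cm 2 → ℂ := fun z => tfun π c (e.symm z) with hF
    have hFd : DifferentiableOn ℂ F (Metric.ball (e x) r) := by
      intro z hz
      have hzW := hrW hz
      have h1 := (mdiff_tfun hπ c).mdifferentiableAt (x := e.symm z)
        (((chartAt ℂ c).open_source.preimage hπ.continuous).mem_nhds hzW.2)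
      have h2 := differentiableAt_symm h1 (chart_mem_atlas _ x) (e.map_target hzW.1)
      rw [← he, e.right_inv hzW.1] at h2
      exact h2.differentiableWithinAt
    have hN : e.source ∩ e ⁻¹' Metric.ball (e x) r ∈ 𝓝 x :=
      (e.isOpen_inter_preimage Metric.isOpen_ball).mem_nhds ⟨hxs, Metric.mem_ball_self hr⟩
    obtain ⟨x', hx', hx'S⟩ := mem_closure_iff_nhds.1 hx _ hN
    have h0 : ∀ᶠ z in 𝓝 (e x'), F z = 0 := by
      have h1 : ContinuousAt e.symm (e x') := e.continuousAt_symm (e.map_source hx'.1)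
      have h2 : Tendsto e.symm (𝓝 (e x')) (𝓝 x') := by
        have := h1.tendsto
        rwa [e.left_inv hx'.1] at this
      filter_upwards [h2.eventually hx'S] with z hz
      rw [hF]
      simp only [tfun, hz, sub_self]
    have h1 : ∀ z ∈ Metric.ball (e x) r, F z = 0 := fun z hz => eqOn_ball_zero hFd hx'.2 h0 hz
    filter_upwards [hN] with z hz
    have h2 := h1 _ hz.2
    simp only [hF] at h2
    rw [e.left_inv hz.1] at h2
    refine (tfun_eq_zero ?_).1 h2
    have h3 := (hrW hz.2).2
    rw [mem_preimage, mem_preimage, e.left_inv hz.1] at h3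
    exact h3
  have huniv : S = univ := by
    rcases isClopen_iff.1 ⟨hSc, hSo⟩ with h | h
    · exact absurd hcon' (by rw [eq_empty_iff_forall_notMem] at h; exact h y)
    · exact h
  obtain ⟨a, b, hab⟩ := hnc
  have ha : a ∈ S := huniv ▸ mem_univ a
  have hb : b ∈ S := huniv ▸ mem_univ b
  exact hab (ha.self_of_nhds.trans hb.self_of_nhds.symm)

open scoped Classical in
/-- the fibre over `c`, as an effective divisor -/
def fibDiv [IsManifold 𝓘(ℂ, Cm 2) ω X] [IsManifold 𝓘(ℂ) ω C] [T2Space C]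
    [PreconnectedSpace X] (π : X → C) (hπ : MDifferentiable 𝓘(ℂ, Cm 2) 𝓘(ℂ) π)
    (hnc : ∃ x y, π x ≠ π y) (c : C) : EffDiv X where
  U x := if π x = c then π ⁻¹' (chartAt ℂ c).source else π ⁻¹' {c}ᶜ
  f x := if π x = c then tfun π c else fun _ => 1
  isOpen x := by
    split_ifs
    · exact (chartAt ℂ c).open_source.preimage hπ.continuous
    · exact isOpen_compl_singleton.preimage hπ.continuous
  mem x := by
    split_ifs with h
    · rw [mem_preimage, h]; exact mem_chart_source ℂ c
    · exact h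
  holo x := by
    by_cases h : π x = c
    · simp only [h, if_true]; exact mdiff_tfun hπ c
    · simp only [h, if_false]; exact mdifferentiableOn_const
  ne x y hy := by
    by_cases h : π x = c
    · simp only [h, if_true] at hy ⊢
      have h1 := (frequently_ne hπ hnc c y).and_eventually
        (((chartAt ℂ c).open_source.preimage hπ.continuous).mem_nhds hy)
      refine h1.mono fun z hz => ?_
      rw [Ne, tfun_eq_zero hz.2]
      exact hz.1
    · simp only [h, if_false]
      exact Filter.Eventually.frequently (Eventually.of_forall fun _ => one_ne_zero)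
  change x x' := by
    by_cases h : π x = c <;> by_cases h' : π x' = c
    · refine ⟨fun _ => 1, mdifferentiableOn_const, fun y _ => ⟨one_ne_zero, ?_⟩⟩
      simp [h, h']
    · refine ⟨tfun π c, ?_, fun y hy => ⟨?_, ?_⟩⟩
      · simp only [h, h', if_true, if_false]
        exact (mdiff_tfun hπ c).mono inter_subset_left
      · simp only [h, h', if_true, if_false] at hy
        rw [Ne, tfun_eq_zero hy.1]
        exact hy.2
      · simp [h, h']
    · refine ⟨fun y => (tfun π c y)⁻¹, ?_, fun y hy => ⟨?_, ?_⟩⟩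
      · simp only [h, h', if_true, if_false]
        intro y hy
        have h1 := (mdiff_tfun hπ c).mdifferentiableAt
          (((chartAt ℂ c).open_source.preimage hπ.continuous).mem_nhds hy.2)
        have hne : tfun π c y ≠ 0 := by rw [Ne, tfun_eq_zero hy.2]; exact hy.1
        have h2 : MDifferentiableAt 𝓘(ℂ) 𝓘(ℂ) (fun w : ℂ => w⁻¹) (tfun π c y) :=
          (differentiableAt_inv hne).mdifferentiableAt
        exact (h2.comp y h1).mdifferentiableWithinAt
      · simp only [h, h', if_true, if_false] at hy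
        refine inv_ne_zero ?_
        rw [Ne, tfun_eq_zero hy.2]
        exact hy.1
      · simp only [h, h', if_true, if_false] at hy ⊢
        have hne : tfun π c y ≠ 0 := by rw [Ne, tfun_eq_zero hy.2]; exact hy.1
        rw [inv_mul_cancel₀ hne]
    · refine ⟨fun _ => 1, mdifferentiableOn_const, fun y _ => ⟨one_ne_zero, ?_⟩⟩
      simp [h, h']

section
variable [IsManifold 𝓘(ℂ, Cm 2) ω X] [IsManifold 𝓘(ℂ) ω C] [T2Space C]
    [PreconnectedSpace X] (π : X → C) (hπ : MDifferentiable 𝓘(ℂ, Cm 2) 𝓘(ℂ) π)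
    (hnc : ∃ x y, π x ≠ π y) (c : C)

theorem fibDiv_f_of_eq {x : X} (h : π x = c) : (fibDiv π hπ hnc c).f x = tfun π c := by
  simp [fibDiv, h]

theorem fibDiv_f_of_ne {x : X} (h : π x ≠ c) : (fibDiv π hπ hnc c).f x = fun _ => 1 := by
  simp [fibDiv, h]

theorem fibDiv_U_of_eq {x : X} (h : π x = c) :
    (fibDiv π hπ hnc c).U x = π ⁻¹' (chartAt ℂ c).source := by
  simp [fibDiv, h]

theorem fibDiv_U_of_ne {x : X} (h : π x ≠ c) : (fibDiv π hπ hnc c).U x = π ⁻¹' {c}ᶜ := by
  simp [fibDiv, h]

/-- the support of the fibre divisor is the fibre -/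
theorem supp_fibDiv : (fibDiv π hπ hnc c).supp = π ⁻¹' {c} := by
  ext x
  rw [EffDiv.supp, mem_ofPred_eq, mem_preimage, mem_singleton_iff]
  by_cases h : π x = c
  · rw [fibDiv_f_of_eq π hπ hnc c h]
    simp [tfun, h]
  · rw [fibDiv_f_of_ne π hπ hnc c h]
    simp [h]

end

end Vale.Agent.P290.H143
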