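import Vale.Agent.P290.H143.FibreNF

/-! # P290, package FIBCLASS (helper143): the curvature of the norm function of a fibre -/

open scoped Manifold ContDiff Topology ComplexConjugate Matrix ComplexOrder
open Set Filter Vale.Agent.P267.FL Vale.Agent.P267.H757 Vale.Agent.P267.H332
open Vale.Agent.P290.H561 (nsq R2 R1 D Db H H_comp H_nsq D_nsq Db_nsq R1_apply R2_apply nsq_cx
  nsq_contDiffAt hol_contDiffAt)

set_option linter.unusedSectionVars false

noncomputable section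

namespace Vale.Agent.P290.H143

/-- complex Hessian of `J (|F|² / R²)` -/
theorem ddz_J {F : C2 → ℂ} {z : C2} (hF : AnalyticAt ℂ F z) (R : ℝ) :
    ddz (fun y => (J (‖F y‖ ^ 2 / R ^ 2) : ℂ)) z =
      ((1 / R ^ 2 * deriv Sm (‖F z‖ ^ 2 / R ^ 2) : ℝ) : ℂ) • R2 F z := by
  set h : ℝ → ℝ := fun s => J (s / R ^ 2) with hh
  have hsm : ContDiff ℝ ∞ h := J_contDiff.comp (contDiff_id.div_const _)
  have h1 := H_comp (z := z) hsm (nsq_contDiffAt (hol_contDiffAt hF))
  have hn : ∀ y, nsq F y = ‖F y‖ ^ 2 := fun y => Complex.normSq_eq_norm_sq _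
  have h2 : ddz (fun y => (J (‖F y‖ ^ 2 / R ^ 2) : ℂ)) z = H (fun y => h (nsq F y)) z := by
    have : (fun y => h (nsq F y)) = fun y => J (‖F y‖ ^ 2 / R ^ 2) := by
      funext y; rw [hh, hn]
    rw [this]; rfl
  have hd : ∀ s, deriv h s = deriv J (s / R ^ 2) * (1 / R ^ 2) := by
    intro s
    have h3 : HasDerivAt h (deriv J (s / R ^ 2) * (1 / R ^ 2)) s := by
      have h4 : HasDerivAt J (deriv J (s / R ^ 2)) (s / R ^ 2) :=
        ((J_contDiff.differentiable (by simp)) _).hasDerivAt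
      exact h4.comp s ((hasDerivAt_id s).div_const _)
    exact h3.deriv
  have hdf : deriv h = fun s => deriv J (s / R ^ 2) * (1 / R ^ 2) := funext hd
  have hJ' : ContDiff ℝ ∞ (deriv J) := by rw [deriv_J]; exact qJ_contDiff
  have hdd : ∀ s, deriv (deriv h) s = deriv (deriv J) (s / R ^ 2) * (1 / R ^ 2) * (1 / R ^ 2) := by
    intro s
    have h3 : HasDerivAt (fun s => deriv J (s / R ^ 2) * (1 / R ^ 2))
        (deriv (deriv J) (s / R ^ 2) * (1 / R ^ 2) * (1 / R ^ 2)) s := by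
      have h4 : HasDerivAt (deriv J) (deriv (deriv J) (s / R ^ 2)) (s / R ^ 2) :=
        ((hJ'.differentiable (by simp)) _).hasDerivAt
      exact (h4.comp s ((hasDerivAt_id s).div_const _)).mul_const _
    rw [hdf]
    exact h3.deriv
  rw [h2, h1, H_nsq hF]
  ext i j
  simp only [Matrix.add_apply, Matrix.smul_apply, smul_eq_mul, R1_apply, R2_apply, D_nsq hF,
    Db_nsq hF]
  rw [hd, hdd]
  have h5 := J_second (nsq F z / R ^ 2)
  have h6 : (nsq F z : ℂ) = F z * conj (F z) := congrFun (nsq_cx F) z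
  rw [← hn z, ← h5]
  push_cast
  rw [h6]
  ring

theorem posSemidef_R2 (F : C2 → ℂ) (z : C2) : (R2 F z).PosSemidef := by
  have : R2 F z = Matrix.vecMulVec (fun i => dz i F z) (star fun i => dz i F z) := by
    ext i j
    simp [R2_apply, Matrix.vecMulVec_apply]
  rw [this]
  exact Matrix.posSemidef_vecMulVec_self_star _

variable {X : Type*} [TopologicalSpace X] [ChartedSpace C2 X]
  {C : Type*} [TopologicalSpace C] [ChartedSpace ℂ C]
  [IsManifold 𝓘(ℂ, C2) ω X] [IsManifold 𝓘(ℂ) ω C] [T2Space C] [PreconnectedSpace X]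
  {π : X → C} (hπ : MDifferentiable 𝓘(ℂ, C2) 𝓘(ℂ) π) {c : C} {R : ℝ}

include hπ in
/-- the local coordinate of the base in a chart of `X` is analytic -/
theorem analyticAt_tfun {e : Ch X} (he : e ∈ atlas C2 X) {z : C2} (hz : z ∈ e.target)
    (hzs : π (e.symm z) ∈ (chartAt ℂ c).source) :
    AnalyticAt ℂ (fun y => tfun π c (e.symm y)) z := by
  have h1 := differentiableOn_chart he (mdiff_tfun hπ c)
  have h2 : IsOpen (e.target ∩ e.symm ⁻¹' (π ⁻¹' (chartAt ℂ c).source)) :=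
    e.symm.isOpen_inter_preimage ((chartAt ℂ c).open_source.preimage hπ.continuous)
  exact Vale.Agent.P268.analyticAt_of_differentiableOn h2 h1 ⟨hz, hzs⟩

include hπ in
/-- the curvature near the fibre, in an arbitrary chart -/
theorem loc11_curvN_fibN (hnc : ∃ x y, π x ≠ π y) {e : Ch X} (he : e ∈ atlas C2 X) {z : C2}
    (hz : z ∈ e.target) (hzU : e.symm z ∈ reg1 π c R) :
    loc11 e (curvN (fibN π c R)) z =
      ((1 / R ^ 2 * deriv Sm (‖tfun π c (e.symm z)‖ ^ 2 / R ^ 2) : ℝ) : ℂ) •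
        R2 (fun y => tfun π c (e.symm y)) z := by
  rw [loc11_curvN (locRep_reg1 hπ hnc) he hz hzU]
  exact ddz_J (analyticAt_tfun hπ he hz hzU.1) R

include hπ in
theorem curvN_fibN_reg1 (hnc : ∃ x y, π x ≠ π y) {x : X} (hx : x ∈ reg1 π c R) :
    curvN (fibN π c R) x =
      ((1 / R ^ 2 * deriv Sm (‖tfun π c x‖ ^ 2 / R ^ 2) : ℝ) : ℂ) •
        R2 (fun y => tfun π c ((chartAt C2 x).symm y)) (chartAt C2 x x) := by
  rw [curvN_eq (locRep_reg1 hπ hnc) hx]
  have h1 := ddz_J (z := chartAt C2 x x) (analyticAt_tfun (c := c) hπ (chart_mem_atlas C2 x)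
    (mem_chart_target C2 x) (by rw [(chartAt C2 x).left_inv (mem_chart_source C2 x)]; exact hx.1)) R
  rw [(chartAt C2 x).left_inv (mem_chart_source C2 x)] at h1
  exact h1

include hπ in
theorem curvN_fibN_reg2 (hR : Metric.closedBall (chartAt ℂ c c) (2 * R) ⊆ (chartAt ℂ c).target)
    (hR0 : 0 < R) {x : X} (hx : x ∈ reg2 π c R) : curvN (fibN π c R) x = 0 := by
  rw [curvN_eq (locRep_reg2 hπ hR hR0) hx]
  exact ddz_const _ _

include hπ in
/-- **the curvature is semipositive** -/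
theorem posSemidef_curvN_fibN (hnc : ∃ x y, π x ≠ π y)
    (hR : Metric.closedBall (chartAt ℂ c c) (2 * R) ⊆ (chartAt ℂ c).target)
    (hR0 : 0 < R) (x : X) : (curvN (fibN π c R) x).PosSemidef := by
  rcases reg_cover π c hR0 x with h | h
  · rw [curvN_fibN_reg1 hπ hnc h]
    refine (posSemidef_R2 _ _).smul ?_
    rw [← Complex.ofReal_zero, Complex.real_le_real]
    exact mul_nonneg (by positivity) (deriv_Sm_nonneg _)
  · rw [curvN_fibN_reg2 hπ hR hR0 h]
    exact Matrix.PosSemidef.zero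

include hπ in
/-- some point lies over the outside of the disc -/
theorem exists_reg2 [CompactSpace X] (hnc : ∃ x y, π x ≠ π y) (hR0 : 0 < R) :
    ∃ x, x ∈ reg2 π c R := by
  by_contra hcon
  push Not at hcon
  have h1 : ∀ x, π x ∈ (chartAt ℂ c).source := fun x => (not_not.1 (hcon x)).1
  have h2 : MDifferentiable 𝓘(ℂ, C2) 𝓘(ℂ) (tfun π c) := fun x =>
    (mdiff_tfun hπ c).mdifferentiableAt
      (((chartAt ℂ c).open_source.preimage hπ.continuous).mem_nhds (h1 x))
  obtain ⟨x, y, hxy⟩ := hnc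
  have h3 := h2.apply_eq_of_compactSpace x y
  apply hxy
  have h4 : chartAt ℂ c (π x) = chartAt ℂ c (π y) := sub_left_inj.1 h3
  exact (chartAt ℂ c).injOn (h1 x) (h1 y) h4

include hπ in
/-- **the curvature is not identically zero** (if `c` is a value of `π`) -/
theorem exists_curvN_fibN_ne_zero [CompactSpace X] (hnc : ∃ x y, π x ≠ π y) (hc : ∃ x, π x = c)
    (hR : Metric.closedBall (chartAt ℂ c c) (2 * R) ⊆ (chartAt ℂ c).target) (hR0 : 0 < R) :
    ∃ x, curvN (fibN π c R) x ≠ 0 := by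
  obtain ⟨r, hr, hrpos⟩ := exists_deriv_Sm_pos
  -- a point with `|t|² / R² = r`
  have hcont : ContinuousOn (fun x => ‖tfun π c x‖ ^ 2 / R ^ 2) (reg1 π c R) := by
    have h1 : ContinuousOn (tfun π c) (reg1 π c R) :=
      (mdiff_tfun hπ c).continuousOn.mono fun x hx => hx.1
    exact (h1.norm.pow 2).div_const _
  obtain ⟨x₁, hx₁, hx₁r⟩ : ∃ x ∈ reg1 π c R, ‖tfun π c x‖ ^ 2 / R ^ 2 = r := by
    by_contra hcon
    push Not at hcon
    have hU : IsOpen (reg1 π c R ∩ (fun x => ‖tfun π c x‖ ^ 2 / R ^ 2) ⁻¹' Iio r) :=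
      hcont.isOpen_inter_preimage (isOpen_reg1 hπ) isOpen_Iio
    have hV : IsOpen (reg2 π c R ∪ (reg1 π c R ∩ (fun x => ‖tfun π c x‖ ^ 2 / R ^ 2) ⁻¹' Ioi r)) :=
      (isOpen_reg2 hπ hR hR0).union
        (hcont.isOpen_inter_preimage (isOpen_reg1 hπ) isOpen_Ioi)
    have hcov : (univ : Set X) ⊆ (reg1 π c R ∩ (fun x => ‖tfun π c x‖ ^ 2 / R ^ 2) ⁻¹' Iio r) ∪
        (reg2 π c R ∪ (reg1 π c R ∩ (fun x => ‖tfun π c x‖ ^ 2 / R ^ 2) ⁻¹' Ioi r)) := by
      intro x _
      rcases reg_cover π c hR0 x with h | h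
      · rcases lt_or_gt_of_ne (hcon x h) with h1 | h1
        · exact Or.inl ⟨h, h1⟩
        · exact Or.inr (Or.inr ⟨h, h1⟩)
      · exact Or.inr (Or.inl h)
    obtain ⟨x₀, hx₀⟩ := hc
    obtain ⟨y, hy⟩ := exists_reg2 hπ (c := c) hnc hR0
    have h0 : x₀ ∈ reg1 π c R ∩ (fun x => ‖tfun π c x‖ ^ 2 / R ^ 2) ⁻¹' Iio r := by
      have ht : tfun π c x₀ = 0 := by rw [tfun, hx₀, sub_self]
      refine ⟨⟨by rw [hx₀]; exact mem_chart_source ℂ c, by rw [ht, norm_zero]; linarith⟩, ?_⟩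
      rw [mem_preimage, ht, norm_zero, mem_Iio]
      have := hr.1
      norm_num
      linarith
    obtain ⟨x, -, hx, hx'⟩ := (PreconnectedSpace.isPreconnected_univ (α := X)) _ _ hU hV hcov
      ⟨x₀, mem_univ _, h0⟩ ⟨y, mem_univ _, Or.inl hy⟩
    rcases hx' with h | h
    · apply h
      refine ⟨hx.1.1, ?_⟩
      have h1 : ‖tfun π c x‖ ^ 2 / R ^ 2 < 1 := lt_trans hx.2 hr.2
      rw [div_lt_one (by positivity)] at h1
      exact (abs_le_of_sq_le_sq' h1.le hR0.le).2
    · exact lt_asymm (show ‖tfun π c x‖ ^ 2 / R ^ 2 < r from hx.2) h.2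
  by_contra hall
  push Not at hall
  -- the differential of `t ∘ π` vanishes near `x₁`
  set e := chartAt C2 x₁ with he
  have hes : x₁ ∈ e.source := mem_chart_source C2 x₁
  set W : Set C2 := e.target ∩ e.symm ⁻¹' (reg1 π c R ∩
    (fun x => ‖tfun π c x‖ ^ 2 / R ^ 2) ⁻¹' (deriv Sm ⁻¹' Ioi 0)) with hW
  have hSm' : Continuous (deriv Sm) := Sm_contDiff.continuous_deriv (by norm_cast)
  have hWo : IsOpen W := e.symm.isOpen_inter_preimage
    (hcont.isOpen_inter_preimage (isOpen_reg1 hπ) (isOpen_Ioi.preimage hSm'))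
  have hxW : e x₁ ∈ W := by
    refine ⟨e.map_source hes, ?_⟩
    rw [mem_preimage, e.left_inv hes]
    exact ⟨hx₁, by rw [mem_preimage, mem_preimage, hx₁r]; exact hrpos⟩
  obtain ⟨ε, hε, hεW⟩ := Metric.isOpen_iff.1 hWo _ hxW
  set F : C2 → ℂ := fun y => tfun π c (e.symm y) with hF
  have hFa : ∀ z ∈ W, AnalyticAt ℂ F z := fun z hz =>
    analyticAt_tfun hπ (chart_mem_atlas C2 x₁) hz.1 hz.2.1.1
  have hfd : ∀ z ∈ W, fderiv ℂ F z = 0 := by
    intro z hz
    have h1 := loc11_curvN_fibN hπ hnc (chart_mem_atlas C2 x₁) hz.1 hz.2.1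
    have h2 : loc11 e (curvN (fibN π c R)) z = 0 := by
      ext i j
      simp [loc11, hall]
    rw [← he, h2] at h1
    have h3 : (0 : ℝ) < 1 / R ^ 2 * deriv Sm (‖tfun π c (e.symm z)‖ ^ 2 / R ^ 2) :=
      mul_pos (by positivity) hz.2.2
    have h4 : R2 F z = 0 := by
      have h5 : ((1 / R ^ 2 * deriv Sm (‖tfun π c (e.symm z)‖ ^ 2 / R ^ 2) : ℝ) : ℂ) ≠ 0 :=
        Complex.ofReal_ne_zero.2 h3.ne'
      exact (smul_eq_zero.1 h1.symm).resolve_left h5
    have h5 : ∀ i, dz i F z = 0 := by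
      intro i
      have := congrFun (congrFun h4 i) i
      rw [R2_apply, Matrix.zero_apply, mul_eq_zero] at this
      rcases this with h | h
      · exact h
      · exact (map_eq_zero _).1 h
    have hd : DifferentiableAt ℂ F z := (hFa z hz).differentiableAt
    ext v
    have h6 : v = ∑ i, v i • (Pi.single i (1 : ℂ) : C2) := by
      ext k
      fin_cases k <;> simp [Pi.single_apply]
    rw [h6, map_sum]
    simp only [map_smul, zero_apply]
    refine Finset.sum_eq_zero fun i _ => ?_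
    rw [← dz_of_hol hd i, h5 i, smul_zero]
  have hconst : ∀ z ∈ Metric.ball (e x₁) ε, F z = F (e x₁) := by
    intro z hz
    refine (convex_ball (e x₁) ε).is_const_of_fderivWithin_eq_zero (𝕜 := ℂ)
      (fun w hw => (hFa w (hεW hw)).differentiableAt.differentiableWithinAt) ?_ hz
      (Metric.mem_ball_self hε)
    intro w hw
    rw [fderivWithin_of_isOpen Metric.isOpen_ball hw]
    exact hfd w (hεW hw)
  apply frequently_ne hπ hnc (π x₁) x₁
  have hN : e.source ∩ e ⁻¹' Metric.ball (e x₁) ε ∈ 𝓝 x₁ :=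
    (e.isOpen_inter_preimage Metric.isOpen_ball).mem_nhds ⟨hes, Metric.mem_ball_self hε⟩
  filter_upwards [hN] with y hy
  rw [not_not]
  have h1 := hconst _ hy.2
  simp only [hF] at h1
  rw [e.left_inv hy.1, e.left_inv hes] at h1
  have h2 : π y ∈ (chartAt ℂ c).source := by
    have := (hεW hy.2).2.1.1
    rwa [e.left_inv hy.1] at this
  exact (chartAt ℂ c).injOn h2 hx₁.1 (sub_left_inj.1 h1)

end Vale.Agent.P290.H143
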