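import Vale.Agent.P290.H143.Fibre
import Vale.Agent.P290.H143.Cut
import Vale.Agent.P290.H561.IPHess
import Vale.Agent.P267.H332.Pair.Curv

/-! # P290, package FIBCLASS (helper143): the norm function of a fibre

`fibN π c R : X → ℝ` is a norm function (helper757) with zero set `π⁻¹{c}` and local equation
`t ∘ π - t c`; its curvature is semipositive, of rank at most one, and not identically zero.
-/

open scoped Manifold ContDiff Topology ComplexConjugate Matrix ComplexOrder
open Set Filter Vale.Agent.P267.FL Vale.Agent.P267.H757 Vale.Agent.P267.H332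

set_option linter.unusedSectionVars false

noncomputable section

namespace Vale.Agent.P290.H143

variable {X : Type*} [TopologicalSpace X] [ChartedSpace C2 X]
  {C : Type*} [TopologicalSpace C] [ChartedSpace ℂ C]

open scoped Classical in
/-- the norm function of the fibre over `c`; `R` is the radius of a coordinate disc at `c` -/
def fibN (π : X → C) (c : C) (R : ℝ) (x : X) : ℝ :=
  if π x ∈ (chartAt ℂ c).source ∧ ‖tfun π c x‖ < 2 * R then
    ‖tfun π c x‖ ^ 2 * Real.exp (-J (‖tfun π c x‖ ^ 2 / R ^ 2))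
  else R ^ 2 * Real.exp (-J 1)

/-- the region of the local equation `tfun` -/
def reg1 (π : X → C) (c : C) (R : ℝ) : Set X :=
  {x | π x ∈ (chartAt ℂ c).source ∧ ‖tfun π c x‖ < 2 * R}

/-- the complement of the small closed disc -/
def reg2 (π : X → C) (c : C) (R : ℝ) : Set X :=
  {x | ¬ (π x ∈ (chartAt ℂ c).source ∧ ‖tfun π c x‖ ≤ R)}

theorem reg_cover (π : X → C) (c : C) {R : ℝ} (hR : 0 < R) (x : X) :
    x ∈ reg1 π c R ∨ x ∈ reg2 π c R := by
  by_cases h : π x ∈ (chartAt ℂ c).source ∧ ‖tfun π c x‖ ≤ R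
  · exact Or.inl ⟨h.1, by linarith [h.2]⟩
  · exact Or.inr h

theorem fibN_reg2 (π : X → C) (c : C) {R : ℝ} (hR : 0 < R) {x : X} (hx : x ∈ reg2 π c R) :
    fibN π c R x = R ^ 2 * Real.exp (-J 1) := by
  rw [fibN]
  split_ifs with h
  · have h1 : R < ‖tfun π c x‖ := by
      by_contra hcon
      exact hx ⟨h.1, not_lt.1 hcon⟩
    set τ := ‖tfun π c x‖ with hτ
    have h2 : 1 ≤ τ ^ 2 / R ^ 2 := by
      rw [le_div_iff₀ (by positivity), one_mul]
      exact pow_le_pow_left₀ hR.le h1.le 2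
    have h3 : 0 < τ ^ 2 / R ^ 2 := by linarith
    rw [J_of_ge h2, neg_add, Real.exp_add, Real.exp_neg (Real.log _), Real.exp_log h3]
    have h4 : 0 < τ := hR.trans h1
    field_simp
  · rfl

section
variable [IsManifold 𝓘(ℂ, C2) ω X] [IsManifold 𝓘(ℂ) ω C] [T2Space C] [PreconnectedSpace X]
  {π : X → C} (hπ : MDifferentiable 𝓘(ℂ, C2) 𝓘(ℂ) π) {c : C} {R : ℝ}

include hπ in
theorem isOpen_reg1 : IsOpen (reg1 π c R) := by
  have h1 : ContinuousOn (tfun π c) (π ⁻¹' (chartAt ℂ c).source) := (mdiff_tfun hπ c).continuousOn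
  have h2 := h1.isOpen_inter_preimage ((chartAt ℂ c).open_source.preimage hπ.continuous)
    (Metric.isOpen_ball (x := (0 : ℂ)) (ε := 2 * R))
  convert h2 using 1
  ext x
  simp [reg1]

include hπ in
theorem isOpen_reg2 (hR : Metric.closedBall (chartAt ℂ c c) (2 * R) ⊆ (chartAt ℂ c).target)
    (hR0 : 0 < R) : IsOpen (reg2 π c R) := by
  have hR' : Metric.closedBall (chartAt ℂ c c) R ⊆ (chartAt ℂ c).target :=
    (Metric.closedBall_subset_closedBall (by linarith)).trans hR
  have h1 : IsCompact ((chartAt ℂ c).symm '' Metric.closedBall (chartAt ℂ c c) R) :=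
    (isCompact_closedBall _ _).image_of_continuousOn
      ((chartAt ℂ c).continuousOn_symm.mono hR')
  have h2 := (h1.isClosed.preimage hπ.continuous).isOpen_compl
  convert h2 using 1
  ext x
  rw [reg2, mem_ofPred_eq, mem_compl_iff, not_iff_not, mem_preimage]
  constructor
  · rintro ⟨h3, h4⟩
    refine ⟨chartAt ℂ c (π x), ?_, (chartAt ℂ c).left_inv h3⟩
    rwa [Metric.mem_closedBall, dist_eq_norm]
  · rintro ⟨w, hw, hwx⟩
    have hwt := hR' hw
    rw [← hwx]
    refine ⟨(chartAt ℂ c).map_target hwt, ?_⟩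
    rw [tfun, ← hwx, (chartAt ℂ c).right_inv hwt, ← dist_eq_norm]
    exact hw

include hπ in
/-- the local representation near the fibre -/
theorem locRep_reg1 (hnc : ∃ x y, π x ≠ π y) :
    LocRep C2 (fibN π c R) (reg1 π c R) (tfun π c)
      (fun x => J (‖tfun π c x‖ ^ 2 / R ^ 2)) where
  isOpen := isOpen_reg1 hπ
  hol := (mdiff_tfun hπ c).mono fun x hx => hx.1
  nz V hV hVU hne := by
    obtain ⟨x, hx⟩ := hne
    have h1 := (frequently_ne hπ hnc c x).and_eventually (hV.mem_nhds hx)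
    obtain ⟨z, hz, hzV⟩ := h1.exists
    refine ⟨z, hzV, ?_⟩
    rw [Ne, tfun_eq_zero (hVU hzV).1]
    exact hz
  smooth := by
    have h1 := smoothOn_normSq (isOpen_reg1 (R := R) hπ)
      ((mdiff_tfun hπ c).mono fun x (hx : x ∈ reg1 π c R) => hx.1)
    have h2 : ContMDiff 𝓘(ℝ) 𝓘(ℝ) ∞ (fun y : ℝ => J (y / R ^ 2)) := by
      rw [contMDiff_iff_contDiff]
      exact J_contDiff.comp (contDiff_id.div_const _)
    exact h2.comp_contMDiffOn h1
  eq x hx := by
    rw [fibN]
    rw [if_pos (show π x ∈ (chartAt ℂ c).source ∧ ‖tfun π c x‖ < 2 * R from hx)]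

include hπ in
/-- the local representation away from the fibre -/
theorem locRep_reg2 (hR : Metric.closedBall (chartAt ℂ c c) (2 * R) ⊆ (chartAt ℂ c).target)
    (hR0 : 0 < R) :
    LocRep C2 (fibN π c R) (reg2 π c R) (fun _ => 1) (fun _ => J 1 - 2 * Real.log R) where
  isOpen := isOpen_reg2 hπ hR hR0
  hol := mdifferentiableOn_const
  nz V hV hVU hne := ⟨hne.some, hne.some_mem, one_ne_zero⟩
  smooth := contMDiffOn_const
  eq x hx := by
    rw [fibN_reg2 π c hR0 hx, norm_one, one_pow, one_mul, neg_sub, sub_eq_add_neg, Real.exp_add,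
      two_mul, Real.exp_add, Real.exp_log hR0, sq]

include hπ in
theorem isNormFn_fibN (hnc : ∃ x y, π x ≠ π y)
    (hR : Metric.closedBall (chartAt ℂ c c) (2 * R) ⊆ (chartAt ℂ c).target) (hR0 : 0 < R) :
    IsNormFn C2 (fibN π c R) := by
  intro x
  rcases reg_cover π c hR0 x with h | h
  · exact ⟨_, _, _, h, locRep_reg1 hπ hnc⟩
  · exact ⟨_, _, _, h, locRep_reg2 hπ hR hR0⟩

theorem fibN_eq_zero (hR0 : 0 < R) (x : X) : fibN π c R x = 0 ↔ π x = c := by
  rcases reg_cover π c hR0 x with h | h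
  · rw [fibN, if_pos (show π x ∈ (chartAt ℂ c).source ∧ ‖tfun π c x‖ < 2 * R from h),
      mul_eq_zero, or_iff_left (Real.exp_pos _).ne', sq_eq_zero_iff, norm_eq_zero,
      tfun_eq_zero h.1]
  · rw [fibN_reg2 π c hR0 h]
    constructor
    · intro h1
      exact absurd h1 (mul_pos (by positivity) (Real.exp_pos _)).ne'
    · rintro h1
      exfalso
      apply h
      rw [h1]
      refine ⟨mem_chart_source ℂ c, ?_⟩
      rw [tfun, h1, sub_self, norm_zero]
      exact hR0.le

end

end Vale.Agent.P290.H143
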