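import Vale.Agent.P290.H143.First
import Vale.Agent.P290.H143.FibreCurv
import Vale.Agent.P290.H342.Pencil
import Mathlib.LinearAlgebra.FreeModule.Finite.Basic
import Mathlib.LinearAlgebra.Dual.Basis

/-! # P290, package FIBCLASS (helper143): from a holomorphic map `π : X → C` to the primitive
nef class `e₀` -/

open scoped Manifold ContDiff Topology ComplexConjugate Matrix ComplexOrder
open Set Filter Vale.Agent.P267.FL Vale.Agent.P267.H757 Vale.Agent.P267.H332
open Vale.Agent.P290.H342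

set_option linter.unusedSectionVars false

noncomputable section

namespace Vale.Agent.P290.H143

universe u

/-- in a unimodular lattice every nonzero vector is a positive multiple of a primitive one -/
theorem exists_primitive {H : Type u} [AddCommGroup H] [Module.Finite ℤ H] [Module.Free ℤ H]
    (B : H →+ H →+ ℤ) (hu : ∀ φ : H →+ ℤ, ∃ x, ∀ y, B x y = φ y) {e : H} (he : e ≠ 0) :
    ∃ (k : ℕ) (e₀ c : H), 0 < k ∧ e = k • e₀ ∧ B c e₀ = 1 := by
  classical
  -- the ideal of all values `φ e`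
  set I : Ideal ℤ := {
    carrier := {n | ∃ φ : H →+ ℤ, φ e = n}
    add_mem' := by
      rintro a b ⟨φ, rfl⟩ ⟨ψ, rfl⟩
      exact ⟨φ + ψ, rfl⟩
    zero_mem' := ⟨0, rfl⟩
    smul_mem' := by
      rintro c a ⟨φ, rfl⟩
      exact ⟨c • φ, rfl⟩ } with hI
  obtain ⟨n, hn⟩ : ∃ n, I = Ideal.span {n} := (IsPrincipalIdealRing.principal I).principal
  set b := Module.Free.chooseBasis ℤ H with hb
  have hcoord : ∀ i, n ∣ b.repr e i := by
    intro i
    have : b.repr e i ∈ I := ⟨(b.coord i).toAddMonoidHom, rfl⟩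
    rw [hn] at this
    exact Ideal.mem_span_singleton.1 this
  have hn0 : n ≠ 0 := by
    rintro rfl
    apply he
    apply b.repr.injective
    ext i
    rw [zero_dvd_iff.1 (hcoord i), map_zero, Finsupp.zero_apply]
  choose q hq using hcoord
  set e₁ : H := ∑ i, q i • b i with he₁
  have hee : e = n • e₁ := by
    have h1 : ∑ i, b.repr e i • b i = n • e₁ := by
      rw [he₁, Finset.smul_sum]
      refine Finset.sum_congr rfl fun i _ => ?_
      rw [smul_smul, hq i]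
    rw [← h1, b.sum_repr e]
  obtain ⟨φ, hφ⟩ : n ∈ I := by rw [hn]; exact Ideal.mem_span_singleton_self n
  have h1 : φ e₁ = 1 := by
    have h2 : n * φ e₁ = n * 1 := by
      rw [mul_one]
      nth_rewrite 2 [← hφ]
      rw [hee, map_zsmul, smul_eq_mul]
    exact mul_left_cancel₀ hn0 h2
  obtain ⟨c, hc⟩ := hu φ
  rcases le_or_gt 0 n with h | h
  · refine ⟨n.natAbs, e₁, c, Int.natAbs_pos.2 hn0, ?_, by rw [hc, h1]⟩
    rw [hee, ← natCast_zsmul, Int.natAbs_of_nonneg h]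
  · refine ⟨n.natAbs, -e₁, -c, Int.natAbs_pos.2 hn0, ?_, ?_⟩
    · rw [hee, ← natCast_zsmul, smul_neg, ← neg_smul, Int.ofNat_natAbs_of_nonpos h.le, neg_neg]
    · simp [hc, h1]

theorem eq_zero_of_comb {κ : Type*} {D D' : κ →₀ ℕ} {k n : ℕ} (hk : 0 < k)
    (h : k • D + n • D' = 0) : D = 0 := by
  ext Γ
  have h2 := DFunLike.congr_fun h Γ
  simp only [Finsupp.add_apply, Finsupp.smul_apply, smul_eq_mul, Finsupp.coe_zero,
    Pi.zero_apply, add_eq_zero, mul_eq_zero] at h2 ⊢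
  exact h2.1.resolve_left hk.ne'

variable {X : Type u} [TopologicalSpace X] [ChartedSpace C2 X] [IsManifold 𝓘(ℂ, C2) ω X]
  [CompactSpace X] [PreconnectedSpace X]
  {C : Type*} [TopologicalSpace C] [ChartedSpace ℂ C] [IsManifold 𝓘(ℂ) ω C] [T2Space C]

theorem exists_rad (c : C) :
    ∃ R : ℝ, 0 < R ∧ Metric.closedBall (chartAt ℂ c c) (2 * R) ⊆ (chartAt ℂ c).target := by
  obtain ⟨ε, hε, h⟩ := Metric.isOpen_iff.1 (chartAt ℂ c).open_target _ (mem_chart_target ℂ c)
  refine ⟨ε / 4, by positivity, ?_⟩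
  refine (Metric.closedBall_subset_ball ?_).trans h
  linarith

/-- radius of a coordinate disc at `c` -/
def rad (c : C) : ℝ := (exists_rad c).choose

theorem rad_pos (c : C) : 0 < rad c := (exists_rad c).choose_spec.1

theorem rad_sub (c : C) : Metric.closedBall (chartAt ℂ c c) (2 * rad c) ⊆ (chartAt ℂ c).target :=
  (exists_rad c).choose_spec.2

/-- the norm function of the fibre over `c` -/
def fN (π : X → C) (c : C) : X → ℝ := fibN π c (rad c)

section
variable {π : X → C} (hπ : MDifferentiable 𝓘(ℂ, C2) 𝓘(ℂ) π) (hnc : ∃ x y, π x ≠ π y)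

include hπ hnc in
theorem isNormFn_fN (c : C) : IsNormFn C2 (fN π c) := isNormFn_fibN hπ hnc (rad_sub c) (rad_pos c)

theorem fN_eq_zero (c : C) (x : X) : fN π c x = 0 ↔ π x = c := fibN_eq_zero (rad_pos c) x

include hπ hnc in
theorem posSemidef_curvN_fN (c : C) (x : X) : (curvN (fN π c) x).PosSemidef :=
  posSemidef_curvN_fibN hπ hnc (rad_sub c) (rad_pos c) x

include hπ hnc in
theorem exists_curvN_fN_ne_zero {c : C} (hc : ∃ x, π x = c) : ∃ x, curvN (fN π c) x ≠ 0 :=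
  exists_curvN_fibN_ne_zero hπ hnc hc (rad_sub c) (rad_pos c)

include hπ hnc in
/-- the range of `π` is infinite -/
theorem infinite_range : (range π).Infinite := by
  have h1 : IsPreconnected (range π) := isPreconnected_range hπ.continuous
  obtain ⟨x, y, hxy⟩ := hnc
  exact h1.infinite_of_nontrivial ⟨π x, mem_range_self x, π y, mem_range_self y, hxy⟩

end

variable (T : DivTh.{u} C2 X) {π : X → C} (hπ : MDifferentiable 𝓘(ℂ, C2) 𝓘(ℂ) π)
  (hnc : ∃ x y, π x ≠ π y)

include hπ hnc in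
theorem fN_orth {c c' : C} (h : c ≠ c') : T.B (T.cl (fN π c)) (T.cl (fN π c')) = 0 :=
  T.int_zero _ _ (isNormFn_fN hπ hnc c) (isNormFn_fN hπ hnc c') fun x hx hx' =>
    h (((fN_eq_zero c x).1 hx).symm.trans ((fN_eq_zero c' x).1 hx'))

include hπ hnc in
/-- a curve lies in at most one fibre -/
theorem fN_disj {c c' : C} (h : c ≠ c') (Γ : T.κ) (hΓ : Γ ∈ (T.dv (fN π c)).support) :
    Γ ∉ (T.dv (fN π c')).support := by
  intro hΓ'
  obtain ⟨x, hx⟩ := T.zero Γ
  have h1 := (T.mem_dv_iff (isNormFn_fN hπ hnc c) Γ).1 hΓ x hx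
  have h2 := (T.mem_dv_iff (isNormFn_fN hπ hnc c') Γ).1 hΓ' x hx
  exact h (((fN_eq_zero c x).1 h1).symm.trans ((fN_eq_zero c' x).1 h2))

include hπ hnc in
theorem dv_fN_ne_zero {c : C} (hc : c ∈ range π) : T.dv (fN π c) ≠ 0 := by
  obtain ⟨x, hx⟩ := hc
  intro h0
  obtain ⟨Γ, hΓ, -⟩ := (T.zero_iff (isNormFn_fN hπ hnc c) x).1 ((fN_eq_zero c x).2 hx)
  rw [h0] at hΓ
  simp at hΓ

include hπ hnc in
/-- all but finitely many fibres have square zero -/
theorem infinite_sq_zero [Module.Finite ℤ T.H] :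
    {c : range π | T.B (T.cl (fN π (c : C))) (T.cl (fN π (c : C))) = 0}.Infinite := by
  have hfin : {c : range π | T.B (T.cl (fN π (c : C))) (T.cl (fN π (c : C))) ≠ 0}.Finite := by
    rw [← Set.finite_coe_iff]
    refine finite_orthogonal T.B
      (fun c : {c : range π | T.B (T.cl (fN π (c : C))) (T.cl (fN π (c : C))) ≠ 0} =>
        T.cl (fN π ((c : range π) : C))) (fun c => c.2) fun c c' hcc' => ?_
    exact fN_orth T hπ hnc fun h => hcc' (Subtype.ext (Subtype.ext h))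
  have hinf : Infinite (range π) := (infinite_range hπ hnc).to_subtype
  intro h
  have := hfin.union h
  have h2 : {c : range π | T.B (T.cl (fN π (c : C))) (T.cl (fN π (c : C))) ≠ 0} ∪
      {c : range π | T.B (T.cl (fN π (c : C))) (T.cl (fN π (c : C))) = 0} = univ := by
    ext c
    simp only [mem_union, mem_ofPred_eq, mem_univ, iff_true]
    exact (em _).symm
  rw [h2] at this
  exact Set.infinite_univ this

include hπ hnc in
/-- some fibre has square zero -/
theorem exists_sq_zero [Module.Finite ℤ T.H] :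
    ∃ c ∈ range π, T.B (T.cl (fN π c)) (T.cl (fN π c)) = 0 := by
  obtain ⟨c, hc⟩ := (infinite_sq_zero T hπ hnc).nonempty
  exact ⟨c, c.2, hc⟩

include hπ hnc in
/-- **The first class.** `hz`: an effective divisor of class `0` is `0`. `hneg`: Hodge index on
`e₀^⊥` for a primitive class `e₀`, a multiple of which is the class of a norm function with
semipositive, not identically vanishing, curvature, and square `0`. -/
theorem exists_first' [Module.Finite ℤ T.H] [Module.Free ℤ T.H]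
    (hu : ∀ φ : T.H →+ ℤ, ∃ x, ∀ y, T.B x y = φ y)
    (hz : ∀ D : T.κ →₀ ℕ, T.toCurves.cls D = 0 → D = 0)
    {c₁ : C} (hc₁r : c₁ ∈ range π) (hc₁ : T.B (T.cl (fN π c₁)) (T.cl (fN π c₁)) = 0)
    (hneg : ∀ (N : X → ℝ) (k : ℕ) (e₀ c₀ : T.H), IsNormFn C2 N → (∀ x, (curvN N x).PosSemidef) →
      (∃ x, curvN N x ≠ 0) → 0 < k → T.cl N = k • e₀ → T.B c₀ e₀ = 1 → T.B e₀ e₀ = 0 →
      ∀ D : T.κ →₀ ℕ, T.B e₀ (T.toCurves.cls D) = 0 →
        T.B (T.toCurves.cls D) (T.toCurves.cls D) ≤ 0 ∧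
        (T.B (T.toCurves.cls D) (T.toCurves.cls D) = 0 → ∃ j : ℤ, T.toCurves.cls D = j • e₀)) :
    ∃ (f : First T.toCurves) (c₀ : T.H), T.B c₀ f.e₀ = 1 ∧ T.cl (fN π c₁) = f.k • f.e₀ := by
  classical
  have hgood := infinite_sq_zero T hπ hnc
  have hN₁ := isNormFn_fN hπ hnc c₁
  have hcl₁ : T.toCurves.cls (T.dv (fN π c₁)) = T.cl (fN π c₁) := T.cl_dv hN₁
  have he : T.cl (fN π c₁) ≠ 0 := by
    intro h
    exact dv_fN_ne_zero T hπ hnc hc₁r (hz _ (by rw [hcl₁, h]))
  obtain ⟨k, e₀, c₀, hk, hke, hc₀⟩ := exists_primitive T.B hu he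
  have hsq : T.B e₀ e₀ = 0 := by
    rw [hke, map_nsmul (T.B (k • e₀)), map_nsmul T.B, AddMonoidHom.nsmul_apply, nsmul_eq_mul,
      nsmul_eq_mul] at hc₁
    have hk' : (k : ℤ) ≠ 0 := by exact_mod_cast hk.ne'
    exact ((mul_eq_zero.1 hc₁).resolve_left hk' |> mul_eq_zero.1).resolve_left hk'
  have hneg' := hneg (fN π c₁) k e₀ c₀ hN₁ (posSemidef_curvN_fN hπ hnc _)
    (exists_curvN_fN_ne_zero hπ hnc hc₁r) hk hke hc₀ hsq
  -- other fibres are positive multiples of `e₀`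
  have hmult : ∀ c : range π, T.B (T.cl (fN π (c : C))) (T.cl (fN π (c : C))) = 0 →
      ∃ j : ℤ, 0 < j ∧ T.cl (fN π (c : C)) = j • e₀ := by
    intro c hc
    have hN := isNormFn_fN hπ hnc (c : C)
    have hcl : T.toCurves.cls (T.dv (fN π (c : C))) = T.cl (fN π (c : C)) := T.cl_dv hN
    have horth : T.B e₀ (T.cl (fN π (c : C))) = 0 := by
      have h1 : T.B (T.cl (fN π c₁)) (T.cl (fN π (c : C))) = 0 := by
        by_cases h : c₁ = (c : C)
        · rw [h]; exact hc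
        · exact fN_orth T hπ hnc h
      rw [hke, map_nsmul, AddMonoidHom.nsmul_apply, nsmul_eq_mul] at h1
      exact (mul_eq_zero.1 h1).resolve_left (by exact_mod_cast hk.ne')
    obtain ⟨j, hj⟩ := (hneg' (T.dv (fN π (c : C))) (by rw [hcl]; exact horth)).2
      (by rw [hcl]; exact hc)
    rw [hcl] at hj
    refine ⟨j, ?_, hj⟩
    by_contra hcon
    obtain ⟨n, rfl⟩ : ∃ n : ℕ, j = -(n : ℤ) := ⟨j.natAbs, by omega⟩
    have h0 : ∀ D D' : T.toCurves.κ →₀ ℕ, T.toCurves.cls D = T.cl (fN π (c : C)) →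
        T.toCurves.cls D' = T.cl (fN π c₁) → T.toCurves.cls (k • D + n • D') = 0 := by
      intro D D' hD hD'
      rw [T.toCurves.cls_add, T.toCurves.cls_nsmul, T.toCurves.cls_nsmul, hD, hD', hj, hke,
        neg_smul, natCast_zsmul, smul_neg, smul_smul, smul_smul, mul_comm, neg_add_cancel]
    exact dv_fN_ne_zero T hπ hnc c.2 (eq_zero_of_comb hk (hz _ (h0 _ _ hcl hcl₁)))
  refine ⟨{
    e₀ := e₀
    E := T.dv (fN π c₁)
    k := k
    k_pos := hk
    E_ne := dv_fN_ne_zero T hπ hnc hc₁r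
    cls_E := by rw [hcl₁, hke]
    sq := hsq
    nef := ?_
    hz := hz
    neg := hneg' }, c₀, hc₀, hke⟩
  intro Γ
  -- a fibre of square zero not containing `Γ`
  obtain ⟨c, hc, hcΓ⟩ : ∃ c : range π, T.B (T.cl (fN π (c : C))) (T.cl (fN π (c : C))) = 0 ∧
      Γ ∉ (T.dv (fN π (c : C))).support := by
    obtain ⟨c₂, hc₂, hne⟩ := (hgood.sdiff (Set.finite_singleton ⟨c₁, hc₁r⟩)).nonempty
    by_cases h : Γ ∈ (T.dv (fN π c₁)).support
    · exact ⟨c₂, hc₂, fN_disj T hπ hnc (fun h' => hne (Subtype.ext h'.symm)) Γ h⟩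
    · exact ⟨⟨c₁, hc₁r⟩, hc₁, h⟩
  obtain ⟨j, hj, hcj⟩ := hmult c hc
  have hN := isNormFn_fN hπ hnc (c : C)
  have h1 : 0 ≤ T.toCurves.B (T.toCurves.cls (T.dv (fN π (c : C)))) (T.toCurves.cl Γ) := by
    apply T.toCurves.nonneg_of_notMem
    exact Finsupp.notMem_support_iff.1 hcΓ
  have h2 : T.toCurves.cls (T.dv (fN π (c : C))) = j • e₀ := by rw [T.cl_dv hN, hcj]
  rw [h2, map_zsmul, AddMonoidHom.zsmul_apply, smul_eq_mul] at h1
  exact nonneg_of_mul_nonneg_right h1 hj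

end Vale.Agent.P290.H143
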